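import Vale.Agent.Lib.P017.Field

/-- For every prime `p` in twelve residue classes modulo `120` and every quadratic field
`K` containing a square root of `-p`, the modular curve `X_0(15)`, with minimal model
`y^2 + x y + y = x^3 + x^2 - 10 x - 10`, has only finitely many `K`-points. -/
theorem Vale.Agent.Results.P017.RankZeroFamily.result (p : ℕ) (hp : p.Prime)
    (hmod : p % 120 ∈ ({19, 23, 31, 47, 53, 61, 77, 79, 83, 91, 107, 109} : Finset ℕ))
    (K : Type*) [Field K] [Algebra ℚ K] (hK : Module.finrank ℚ K = 2)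
    (α : K) (hα : α ^ 2 = -(p : K)) :
    Finite (WeierstrassCurve.Affine.Point
      ((⟨1, 1, 1, -10, -10⟩ : WeierstrassCurve ℚ).baseChange K)) := by
  have h120 : p % 120 = 19 ∨ p % 120 = 23 ∨ p % 120 = 31 ∨ p % 120 = 47 ∨ p % 120 = 53 ∨
      p % 120 = 61 ∨ p % 120 = 77 ∨ p % 120 = 79 ∨ p % 120 = 83 ∨ p % 120 = 91 ∨
      p % 120 = 107 ∨ p % 120 = 109 := by
    simpa using hmod
  exact Vale.Agent.Lib.P017.finite_main hp (by omega) (by omega) hK hα
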